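import Mathlib
import Vale.Agent.H93.HeisDefs
import Vale.Agent.H93.HaldaneGap

namespace Vale.Agent.Results.P348.A_GapUpperBound

open Vale.Agent.H93

/-- For every ring length `L ≥ 2` (in particular every even `L ≥ 4`), the spin-one
antiferromagnetic Heisenberg Hamiltonian `H_L` on the periodic ring has a least eigenvalue
`E₀`, a next distinct eigenvalue `E₁`, and the gap `E₁ - E₀` is smaller than `10/3`. -/
theorem result (L : ℕ) [NeZero L] (hL : 2 ≤ L) :
    ∃ E₀ E₁ : ℝ, IsLeast (spectrum ℝ (heis L)) E₀ ∧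
      IsLeast {E | E ∈ spectrum ℝ (heis L) ∧ E₀ < E} E₁ ∧ E₁ - E₀ < 10 / 3 :=
  gap_bound hL

end Vale.Agent.Results.P348.A_GapUpperBound
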