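import Mathlib
import Vale.Agent.H93.HeisDefs
import Vale.Agent.H93.HaldaneGap

namespace Vale.Agent.Results.P348.B_LiminfUpperBound

open Vale.Agent.H93

/-- The gaps of the spin-one antiferromagnetic Heisenberg rings, in the literal form of the
problem: there is a sequence `γ` with `γ m = E₁ - E₀` for the ring of `L = m + 2` sites (`E₀`
the least eigenvalue of `H_L`, `E₁` the next distinct eigenvalue), `0 < γ m < 10/3` for every
`m`, and the lower limit of the gaps along the even lengths `L = 2 n + 4 ≥ 4`, which is the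
quantity `Δ₁` of the problem, lies between `0` and `10/3`. -/
theorem result :
    ∃ γ : ℕ → ℝ,
      (∀ m : ℕ, ∃ E₀ E₁ : ℝ, IsLeast (spectrum ℝ (heis (m + 2))) E₀ ∧
        IsLeast {E | E ∈ spectrum ℝ (heis (m + 2)) ∧ E₀ < E} E₁ ∧ γ m = E₁ - E₀) ∧
      (∀ m : ℕ, 0 < γ m ∧ γ m < 10 / 3) ∧
      0 ≤ Filter.liminf (fun n : ℕ => γ (2 * n + 2)) Filter.atTop ∧
      Filter.liminf (fun n : ℕ => γ (2 * n + 2)) Filter.atTop ≤ 10 / 3 := by
  have key : ∀ m : ℕ, ∃ g : ℝ, (∃ E₀ E₁ : ℝ, IsLeast (spectrum ℝ (heis (m + 2))) E₀ ∧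
      IsLeast {E | E ∈ spectrum ℝ (heis (m + 2)) ∧ E₀ < E} E₁ ∧ g = E₁ - E₀) ∧
      0 < g ∧ g < 10 / 3 := by
    intro m
    obtain ⟨E₀, E₁, h0, h1, h2⟩ := gap_bound (L := m + 2) (by omega)
    refine ⟨E₁ - E₀, ⟨E₀, E₁, h0, h1, rfl⟩, ?_, h2⟩
    have hlt : E₀ < E₁ := h1.1.2
    linarith
  choose γ hγ using key
  have hpos : ∀ m : ℕ, 0 < γ m ∧ γ m < 10 / 3 := fun m => (hγ m).2
  have hbd_le : Filter.IsBoundedUnder (· ≤ ·) Filter.atTop (fun n : ℕ => γ (2 * n + 2)) :=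
    Filter.isBoundedUnder_of ⟨10 / 3, fun n => (hpos (2 * n + 2)).2.le⟩
  have hbd_ge : Filter.IsBoundedUnder (· ≥ ·) Filter.atTop (fun n : ℕ => γ (2 * n + 2)) :=
    Filter.isBoundedUnder_of ⟨0, fun n => (hpos (2 * n + 2)).1.le⟩
  refine ⟨γ, fun m => (hγ m).1, hpos, ?_, ?_⟩
  · exact Filter.le_liminf_of_le hbd_le.isCoboundedUnder_ge
      (Filter.Eventually.of_forall fun n => (hpos (2 * n + 2)).1.le)
  · refine Filter.liminf_le_of_le hbd_ge ?_
    intro b hb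
    obtain ⟨n, hn⟩ := hb.exists
    exact hn.trans (hpos (2 * n + 2)).2.le

end Vale.Agent.Results.P348.B_LiminfUpperBound
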